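import Vale.Agent.P199.Kurosh.Main
import Vale.Agent.P199.Kurosh.HandIn
import Vale.Agent.P199.Kurosh.Final

/-! The answer to Kurosh's problem for division rings is negative. -/

namespace Vale.Agent.Results.P199.KuroshFalse

open _root_.P199K in
theorem result :
    ∃ (D : Type) (_ : DivisionRing D),
      (∀ x : D, IsAlgebraic (Subring.center D) x) ∧
      (∃ s : Finset D, Algebra.adjoin (Subring.center D) (s : Set D) = ⊤ ∧
        ¬ Module.Finite (Subring.center D) D) ∧
      ∃ (k : Type) (_ : Field k) (_ : Algebra k D), Algebra.IsAlgebraic k D ∧
        Algebra.FiniteType k D ∧ ¬ FiniteDimensional k D :=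
  kurosh_wording (kurosh_of_final (final_holds (minimal_of wle_all) symExists_holds
    (approachExists_holds perturb_holds) growExists_holds limit_all vanish_all subst_holds))

end Vale.Agent.Results.P199.KuroshFalse
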