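import Vale.Agent.P199.Basic

/-!
Kurosh's problem over perfect fields with nilpotent Galois groups and trivial Brauer groups.
-/

namespace Vale.Agent.Results.P199.KuroshNilpotentGalois

universe u

theorem result {k : Type u} [Field k] [PerfectField k]
    (hnil : ∀ (N : Type u) [Field N] [Algebra k N] [FiniteDimensional k N] [IsGalois k N],
      Group.IsNilpotent (N ≃ₐ[k] N))
    (hbr : ∀ (A : Type u) [DivisionRing A] [Algebra k A] [FiniteDimensional k A],
      ∀ x y : A, x * y = y * x)
    (D : Type u) [DivisionRing D] [Algebra k D] [Algebra.IsAlgebraic k D] :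
    (∀ x y : D, x * y = y * x) ∧
      ∀ S : Finset D, FiniteDimensional k (Algebra.adjoin k (S : Set D)) := by
  refine ⟨Vale.Agent.P199.commutative hnil hbr, fun S =>
    show Module.Finite k (Subalgebra.toSubmodule (Algebra.adjoin k (S : Set D))) from
      Module.Finite.iff_fg.2 ?_⟩
  letI : CommRing D := { (inferInstance : Ring D) with
    mul_comm := Vale.Agent.P199.commutative hnil hbr }
  exact fg_adjoin_of_finite S.finite_toSet fun x _ =>
    (Algebra.IsAlgebraic.isAlgebraic (R := k) x).isIntegral

end Vale.Agent.Results.P199.KuroshNilpotentGalois
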